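import Vale.Agent.P063.Width

/-! The threshold-width conjecture of Friedgut and Kalai. -/

namespace Vale.Agent.Results.P063.FriedgutKalai

open Vale.Agent.P063

theorem result : ∀ r : ℕ, 2 ≤ r → ∀ ε : ℝ, 0 < ε → ε < 1 / 2 →
    ∃ C : ℝ, ∀ n : ℕ, r ≤ n → ∀ P : Finset (Finset (Finset (Fin n))),
      IsHypergraphProperty n r P → IsIncreasing n r P → P.Nonempty → P ≠ hypergraphs n r →
      width n r P ε ≤ C * Real.log n ^ (-((r : ℝ) / ((r : ℝ) - 1))) :=
  width_bound

end Vale.Agent.Results.P063.FriedgutKalai
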